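import Mathlib
import Vale.Agent.Results.P034.LocalSparse

namespace Vale.Agent.Results.P034.AAllResults

open Finset Vale.Agent.Results.P034.LocalSparse

universe u

/-- Three special cases of the fractional-versus-integral comparison: locally sparse supports,
globally sparse supports, and supports made of large sets. -/
theorem result :
    (∀ (C : ℝ), 1 ≤ C → ∀ (X : Type u) [Fintype X] [DecidableEq X]
      (F M : Finset (Finset X)), M ⊆ F → (∀ H ∈ F, ∃ A ∈ M, A ⊆ H) →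
      ∀ (g : Finset X → ℝ) (p : ℝ), 0 ≤ p → p ≤ 1 →
      IsFracCover g F → fracCost g p ≤ 1 / 2 →
      (∀ A ∈ M, IsSparseIn C g A) →
      IsSmall (p / (6 * C)) F ∧ p ≤ 6 * C * expThreshold F)
    ∧
    (∀ (C : ℝ), 1 ≤ C → ∀ (X : Type u) [Fintype X] [DecidableEq X]
      (F : Finset (Finset X)) (g : Finset X → ℝ) (p : ℝ), 0 ≤ p → p ≤ 1 →
      IsFracCover g F → fracCost g p ≤ 1 / 2 →
      (∀ S, g S ≠ 0 →
        ((univ.filter fun S' => g S' ≠ 0 ∧ S'.card = S.card ∧ ¬ Disjoint S S').card : ℝ)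
          ≤ C ^ S.card) →
      IsSmall (p / (6 * C)) F ∧ p ≤ 6 * C * expThreshold F)
    ∧
    (∀ (c : ℝ), 1 ≤ c → ∀ (l : ℕ) (X : Type u) [Fintype X] [DecidableEq X]
      (F M : Finset (Finset X)), M ⊆ F → (∀ H ∈ F, ∃ A ∈ M, A ⊆ H) →
      (∀ A ∈ M, A.card ≤ l) →
      ∀ (g : Finset X → ℝ) (p : ℝ), 0 ≤ p → p ≤ 1 →
      IsFracCover g F → fracCost g p ≤ 1 / 2 →
      (∀ S, g S ≠ 0 → (l : ℝ) ≤ c * S.card) →
      IsSmall (p / (6 * (Real.exp 1 * c))) F ∧ p ≤ 6 * (Real.exp 1 * c) * expThreshold F) := by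
  refine ⟨?_, ?_, ?_⟩
  · intro C hC X _ _ F M hMF hgen g p hp0 hp1 hg hcost hsp
    exact LocalSparse.result C hC F M hMF hgen g p hp0 hp1 hg hcost hsp
  · intro C hC X _ _ F g p hp0 hp1 hg hcost hsp
    refine LocalSparse.result C hC F F (Subset.refl _) (fun H hH => ⟨H, hH, Subset.refl _⟩)
      g p hp0 hp1 hg hcost ?_
    intro A _ S _ hS
    refine le_trans ?_ (hsp S hS)
    have : (A.powerset.filter fun S' => g S' ≠ 0 ∧ S'.card = S.card ∧ ¬ Disjoint S S') ⊆
        (univ.filter fun S' => g S' ≠ 0 ∧ S'.card = S.card ∧ ¬ Disjoint S S') := by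
      intro T hT
      rw [mem_filter] at hT ⊢
      exact ⟨mem_univ _, hT.2⟩
    exact_mod_cast card_le_card this
  · intro c hc l X _ _ F M hMF hgen hl g p hp0 hp1 hg hcost hbig
    have he : (1 : ℝ) ≤ Real.exp 1 := by
      have := Real.add_one_le_exp (1 : ℝ); linarith
    have hC : (1 : ℝ) ≤ Real.exp 1 * c := by nlinarith
    refine LocalSparse.result (Real.exp 1 * c) hC F M hMF hgen g p hp0 hp1 hg hcost ?_
    intro A hA S _ hS
    set s := S.card with hs
    have h1 : (A.powerset.filter fun S' => g S' ≠ 0 ∧ S'.card = s ∧ ¬ Disjoint S S') ⊆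
        A.powersetCard s := by
      intro T hT
      rw [mem_filter, mem_powerset] at hT
      rw [mem_powersetCard]
      exact ⟨hT.1, hT.2.2.1⟩
    have h2 : (A.powerset.filter fun S' => g S' ≠ 0 ∧ S'.card = s ∧ ¬ Disjoint S S').card
        ≤ l.choose s := by
      refine (card_le_card h1).trans ?_
      rw [card_powersetCard]
      exact Nat.choose_le_choose s (hl A hA)
    have h3 : ((l.choose s : ℕ) : ℝ) ≤ (l : ℝ) ^ s / (s.factorial : ℝ) :=
      Nat.choose_le_pow_div s l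
    have h4 : (l : ℝ) ^ s ≤ (c * s) ^ s :=
      pow_le_pow_left₀ (Nat.cast_nonneg _) (hbig S hS) s
    have h5 : (s : ℝ) ^ s / (s.factorial : ℝ) ≤ Real.exp s :=
      Real.pow_div_factorial_le_exp (s : ℝ) (Nat.cast_nonneg _) s
    have h6 : Real.exp (s : ℝ) = Real.exp 1 ^ s := by
      rw [← Real.exp_nat_mul]; simp
    have hf : (0 : ℝ) < (s.factorial : ℝ) := by exact_mod_cast Nat.factorial_pos s
    have hc0 : (0 : ℝ) ≤ c ^ s := by positivity
    calc (((A.powerset.filter fun S' => g S' ≠ 0 ∧ S'.card = s ∧ ¬ Disjoint S S').card : ℕ) : ℝ)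
        ≤ ((l.choose s : ℕ) : ℝ) := by exact_mod_cast h2
      _ ≤ (l : ℝ) ^ s / (s.factorial : ℝ) := h3
      _ ≤ (c * s) ^ s / (s.factorial : ℝ) := by gcongr
      _ = c ^ s * ((s : ℝ) ^ s / (s.factorial : ℝ)) := by rw [mul_pow]; ring
      _ ≤ c ^ s * Real.exp 1 ^ s := by rw [← h6]; gcongr
      _ = (Real.exp 1 * c) ^ s := by rw [mul_pow]; ring

end Vale.Agent.Results.P034.AAllResults
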